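import Mathlib

/-!
# P208: doubling subsets of Hilbert space and bi-Lipschitz embeddings
-/

namespace Vale.Agent.P208

open Set Metric

/-- The real Hilbert space of square-summable sequences. -/
abbrev Hilb : Type := lp (fun _ : ℕ => ℝ) 2

/-- `X` is doubling with constant at most `lam`: each closed ball of `X` is covered by at most
`lam` balls of half the radius centred in `X`. -/
def DoublingWith (X : Set Hilb) (lam : ℕ) : Prop :=
  ∀ x ∈ X, ∀ r : ℝ, 0 < r → ∃ C : Finset Hilb, ↑C ⊆ X ∧ C.card ≤ lam ∧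
    ∀ y ∈ X, dist y x ≤ r → ∃ c ∈ C, dist y c ≤ r / 2

/-- `X` is doubling. -/
def Doubling (X : Set Hilb) : Prop := ∃ lam : ℕ, DoublingWith X lam

/-- `X` bi-Lipschitz embeds in `ℝ^k` with distortion at most `D`. -/
def EmbedsWith (X : Set Hilb) (k : ℕ) (D : ℝ) : Prop :=
  ∃ f : Hilb → EuclideanSpace ℝ (Fin k), ∃ a : ℝ, 0 < a ∧ ∀ x ∈ X, ∀ y ∈ X,
    a * dist x y ≤ dist (f x) (f y) ∧ dist (f x) (f y) ≤ D * a * dist x y

/-- `X` bi-Lipschitz embeds in some `ℝ^k`. -/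
def Embeds (X : Set Hilb) : Prop := ∃ (k : ℕ) (D : ℝ), EmbedsWith X k D

theorem EmbedsWith.subset {X Y : Set Hilb} {k : ℕ} {D : ℝ} (h : EmbedsWith X k D) (hYX : Y ⊆ X) :
    EmbedsWith Y k D := by
  obtain ⟨f, a, ha, hf⟩ := h
  exact ⟨f, a, ha, fun x hx y hy => hf x (hYX hx) y (hYX hy)⟩

theorem EmbedsWith.mono {X : Set Hilb} {k : ℕ} {D E : ℝ} (h : EmbedsWith X k D) (hDE : D ≤ E) :
    EmbedsWith X k E := by
  obtain ⟨f, a, ha, hf⟩ := h
  refine ⟨f, a, ha, fun x hx y hy => ⟨(hf x hx y hy).1, (hf x hx y hy).2.trans ?_⟩⟩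
  exact mul_le_mul_of_nonneg_right (mul_le_mul_of_nonneg_right hDE ha.le) dist_nonneg

theorem embedsWith_empty (k : ℕ) (D : ℝ) : EmbedsWith ∅ k D :=
  ⟨fun _ => 0, 1, one_pos, fun _ hx => hx.elim⟩

/-- Two doubling steps: a ball of radius `r` is covered by `lam * lam` balls of radius `r / 4`. -/
theorem DoublingWith.cover_two {X : Set Hilb} {lam : ℕ} (h : DoublingWith X lam) {x : Hilb}
    (hx : x ∈ X) {r : ℝ} (hr : 0 < r) : ∃ C : Finset Hilb, ↑C ⊆ X ∧ C.card ≤ lam * lam ∧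
      ∀ y ∈ X, dist y x ≤ r → ∃ c ∈ C, dist y c ≤ r / 4 := by
  classical
  obtain ⟨C, hCX, hCc, hC⟩ := h x hx r hr
  have : ∀ c ∈ C, ∃ E : Finset Hilb, ↑E ⊆ X ∧ E.card ≤ lam ∧
      ∀ y ∈ X, dist y c ≤ r / 2 → ∃ e ∈ E, dist y e ≤ r / 2 / 2 :=
    fun c hc => h c (hCX hc) (r / 2) (by linarith)
  choose E hEX hEc hE using this
  refine ⟨C.attach.biUnion fun c => E c.1 c.2, ?_, ?_, ?_⟩
  · intro e he
    simp only [Finset.coe_biUnion, mem_iUnion] at he
    obtain ⟨c, -, he⟩ := he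
    exact hEX c.1 c.2 he
  · calc _ ≤ ∑ c ∈ C.attach, (E c.1 c.2).card := Finset.card_biUnion_le
      _ ≤ C.attach.card • lam := Finset.sum_le_card_nsmul _ _ _ fun c _ => hEc c.1 c.2
      _ ≤ lam * lam := by
        rw [Finset.card_attach, smul_eq_mul]
        exact Nat.mul_le_mul_right _ hCc
  · intro y hy hd
    obtain ⟨c, hc, hyc⟩ := hC y hy hd
    obtain ⟨e, he, hye⟩ := hE c hc y hy hyc
    exact ⟨e, Finset.mem_biUnion.2 ⟨⟨c, hc⟩, Finset.mem_attach _ _, he⟩, by linarith⟩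

/-- Doubling passes to subsets, with the constant squared. -/
theorem DoublingWith.subset {X Y : Set Hilb} {lam : ℕ} (h : DoublingWith X lam) (hYX : Y ⊆ X) :
    DoublingWith Y (lam * lam) := by
  classical
  intro x hx r hr
  obtain ⟨C, -, hCc, hC⟩ := h.cover_two (hYX hx) hr
  let C' := C.filter fun c => ∃ y ∈ Y, dist y c ≤ r / 4
  have hp : ∀ c ∈ C', ∃ y, y ∈ Y ∧ dist y c ≤ r / 4 := fun c hc => (Finset.mem_filter.1 hc).2
  choose p hpY hpd using hp
  refine ⟨C'.attach.image fun c => p c.1 c.2, ?_, ?_, ?_⟩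
  · intro z hz
    simp only [Finset.coe_image, mem_image] at hz
    obtain ⟨c, -, rfl⟩ := hz
    exact hpY c.1 c.2
  · calc _ ≤ C'.attach.card := Finset.card_image_le
      _ ≤ C.card := by
        rw [Finset.card_attach]
        exact Finset.card_filter_le _ _
      _ ≤ _ := hCc
  · intro y hy hd
    obtain ⟨c, hc, hyc⟩ := hC y (hYX hy) hd
    have hc' : c ∈ C' := Finset.mem_filter.2 ⟨hc, y, hy, hyc⟩
    refine ⟨p c hc', Finset.mem_image.2 ⟨⟨c, hc'⟩, Finset.mem_attach _ _, rfl⟩, ?_⟩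
    have := dist_triangle_right y (p c hc') c
    linarith [hpd c hc']

/-- A uniform bound for finite sets passes to arbitrary sets (compactness). -/
theorem embedsWith_of_finite {X : Set Hilb} {k : ℕ} {D : ℝ}
    (h : ∀ F : Finset Hilb, ↑F ⊆ X → EmbedsWith (↑F) k D) : EmbedsWith X k D := by
  classical
  rcases X.eq_empty_or_nonempty with rfl | ⟨x₀, hx₀⟩
  · exact embedsWith_empty k D
  have hF : ∀ F : Finset X, ∃ g : Hilb → EuclideanSpace ℝ (Fin k), g x₀ = 0 ∧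
      ∀ x : Hilb, (x = x₀ ∨ ∃ hx : x ∈ X, (⟨x, hx⟩ : X) ∈ F) →
        ∀ y : Hilb, (y = x₀ ∨ ∃ hy : y ∈ X, (⟨y, hy⟩ : X) ∈ F) →
          dist x y ≤ dist (g x) (g y) ∧ dist (g x) (g y) ≤ D * dist x y := by
    intro F
    have hsub : (↑(insert x₀ (F.image Subtype.val)) : Set Hilb) ⊆ X := by
      intro z hz
      rcases Finset.mem_insert.1 (Finset.mem_coe.1 hz) with rfl | hz
      · exact hx₀
      · obtain ⟨w, -, rfl⟩ := Finset.mem_image.1 hz
        exact w.2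
    obtain ⟨f, a, ha, hf⟩ := h _ hsub
    have hmem : ∀ z : Hilb, (z = x₀ ∨ ∃ hz : z ∈ X, (⟨z, hz⟩ : X) ∈ F) →
        z ∈ (↑(insert x₀ (F.image Subtype.val)) : Set Hilb) := by
      rintro z (rfl | ⟨hz, hzF⟩)
      · exact Finset.mem_insert_self _ _
      · exact Finset.mem_insert_of_mem (Finset.mem_image.2 ⟨⟨z, hz⟩, hzF, rfl⟩)
    refine ⟨fun z => a⁻¹ • (f z - f x₀), by simp, fun x hx y hy => ?_⟩
    have hd : dist (a⁻¹ • (f x - f x₀)) (a⁻¹ • (f y - f x₀)) = a⁻¹ * dist (f x) (f y) := by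
      rw [dist_smul₀, dist_sub_right, Real.norm_eq_abs, abs_of_pos (inv_pos.2 ha)]
    obtain ⟨h1, h2⟩ := hf x (hmem x hx) y (hmem y hy)
    constructor
    · rw [hd, le_inv_mul_iff₀ ha]
      exact h1
    · rw [hd, inv_mul_le_iff₀ ha]
      exact h2.trans_eq (by ring)
  choose g hg0 hg using hF
  let u : Ultrafilter (Finset X) := Ultrafilter.of Filter.atTop
  have hu : ↑u ≤ (Filter.atTop : Filter (Finset X)) := Ultrafilter.of_le _
  have hev : ∀ x : X, ∀ᶠ F in (u : Filter (Finset X)), x ∈ F := fun x =>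
    hu ((Filter.eventually_ge_atTop {x}).mono fun F hF => hF (Finset.mem_singleton_self x))
  have hlim : ∀ x : X, ∃ L : EuclideanSpace ℝ (Fin k),
      Filter.Tendsto (fun F => g F x.1) (u : Filter (Finset X)) (nhds L) := by
    intro x
    have hball : ∀ᶠ F in (u : Filter (Finset X)),
        g F x.1 ∈ closedBall (0 : EuclideanSpace ℝ (Fin k)) (D * dist x.1 x₀) := by
      filter_upwards [hev x] with F hF
      have := (hg F x.1 (Or.inr ⟨x.2, hF⟩) x₀ (Or.inl rfl)).2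
      rwa [hg0 F] at this
    obtain ⟨L, -, hL⟩ := (isCompact_closedBall (0 : EuclideanSpace ℝ (Fin k))
      (D * dist x.1 x₀)).ultrafilter_le_nhds (u.map fun F => g F x.1)
      (Filter.le_principal_iff.2 hball)
    exact ⟨L, hL⟩
  choose L hL using hlim
  refine ⟨fun z => if hz : z ∈ X then L ⟨z, hz⟩ else 0, 1, one_pos, fun x hx y hy => ?_⟩
  simp only [dif_pos hx, dif_pos hy, one_mul, mul_one]
  have hd : Filter.Tendsto (fun F => dist (g F x) (g F y)) (u : Filter (Finset X))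
      (nhds (dist (L ⟨x, hx⟩) (L ⟨y, hy⟩))) := (hL ⟨x, hx⟩).dist (hL ⟨y, hy⟩)
  have hb : ∀ᶠ F in (u : Filter (Finset X)),
      dist x y ≤ dist (g F x) (g F y) ∧ dist (g F x) (g F y) ≤ D * dist x y := by
    filter_upwards [hev ⟨x, hx⟩, hev ⟨y, hy⟩] with F h1 h2
    exact hg F x (Or.inr ⟨hx, h1⟩) y (Or.inr ⟨hy, h2⟩)
  exact ⟨ge_of_tendsto hd (hb.mono fun _ h => h.1), le_of_tendsto hd (hb.mono fun _ h => h.2)⟩

end Vale.Agent.P208
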