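import Vale.Agent.P208.Defs

/-!
# P208: gluing finite configurations into one compact countable doubling set
-/

namespace Vale.Agent.P208

open Set Metric

/-- The distance from the origin of the `n`-th cluster. -/
noncomputable def radSeq (n : ℕ) : ℝ := (1 / 4) ^ n

theorem radSeq_pos (n : ℕ) : 0 < radSeq n := by
  unfold radSeq
  positivity

theorem radSeq_lt {n m : ℕ} (h : n < m) : radSeq m ≤ radSeq n / 4 := by
  unfold radSeq
  calc ((1 : ℝ) / 4) ^ m ≤ (1 / 4) ^ (n + 1) :=
        pow_le_pow_of_le_one (by norm_num) (by norm_num) h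
    _ = _ := by ring

/-- The axis along which clusters are placed. -/
noncomputable def axisVec : Hilb := lp.single 2 0 (1 : ℝ)

theorem norm_axisVec : ‖axisVec‖ = 1 := by
  unfold axisVec
  rw [lp.norm_single (by norm_num)]
  simp

/-- A similarity placing a finite set of radius `R` about `b` near `radSeq n • axisVec`. -/
noncomputable def place (b : ℕ → Hilb) (R : ℕ → ℝ) (n : ℕ) (z : Hilb) : Hilb :=
  radSeq n • axisVec + (radSeq n / (8 * R n)) • (z - b n)

/-- The glued set. -/
def glued (F : ℕ → Finset Hilb) (b : ℕ → Hilb) (R : ℕ → ℝ) : Set Hilb :=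
  insert 0 (⋃ n, place b R n '' ↑(F n))

variable {F : ℕ → Finset Hilb} {b : ℕ → Hilb} {R : ℕ → ℝ}

theorem dist_place (hR : ∀ n, 0 < R n) (n : ℕ) (y z : Hilb) :
    dist (place b R n y) (place b R n z) = radSeq n / (8 * R n) * dist y z := by
  have : 0 ≤ radSeq n / (8 * R n) :=
    div_nonneg (radSeq_pos n).le (mul_nonneg (by norm_num) (hR n).le)
  unfold place
  rw [dist_add_left, dist_smul₀, dist_sub_right, Real.norm_eq_abs, abs_of_nonneg this]

theorem place_inj (hR : ∀ n, 0 < R n) (n : ℕ) : Function.Injective (place b R n) := by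
  intro y z h
  have h2 := dist_place (b := b) hR n y z
  rw [h, dist_self, eq_comm, mul_eq_zero] at h2
  rcases h2 with h2 | h2
  · exact absurd h2 (ne_of_gt (div_pos (radSeq_pos n) (mul_pos (by norm_num) (hR n))))
  · exact dist_eq_zero.1 h2

theorem norm_place (hR : ∀ n, 0 < R n) (hb : ∀ n, ∀ z ∈ F n, dist z (b n) ≤ R n)
    {n : ℕ} {y : Hilb} (hy : y ∈ place b R n '' ↑(F n)) :
    7 / 8 * radSeq n ≤ ‖y‖ ∧ ‖y‖ ≤ 9 / 8 * radSeq n := by
  obtain ⟨z, hz, rfl⟩ := hy
  have h1 : ‖(radSeq n / (8 * R n)) • (z - b n)‖ ≤ radSeq n / 8 := by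
    have hpos : 0 < radSeq n / (8 * R n) := div_pos (radSeq_pos n) (mul_pos (by norm_num) (hR n))
    rw [norm_smul, Real.norm_eq_abs, abs_of_pos hpos, ← dist_eq_norm]
    calc _ ≤ radSeq n / (8 * R n) * R n :=
          mul_le_mul_of_nonneg_left (hb n z hz) hpos.le
      _ = _ := by
        have := (hR n).ne'
        field_simp
  have h2 : ‖radSeq n • axisVec‖ = radSeq n := by
    rw [norm_smul, norm_axisVec, Real.norm_eq_abs, abs_of_pos (radSeq_pos n), mul_one]
  unfold place
  constructor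
  · have := norm_sub_norm_le (radSeq n • axisVec) (-((radSeq n / (8 * R n)) • (z - b n)))
    rw [sub_neg_eq_add, norm_neg] at this
    linarith
  · have := norm_add_le (radSeq n • axisVec) ((radSeq n / (8 * R n)) • (z - b n))
    linarith

/-- Points of different clusters are far apart compared with both clusters. -/
theorem dist_place_ne (hR : ∀ n, 0 < R n) (hb : ∀ n, ∀ z ∈ F n, dist z (b n) ≤ R n)
    {n m : ℕ} (h : n ≠ m) {y x : Hilb} (hy : y ∈ place b R n '' ↑(F n))
    (hx : x ∈ place b R m '' ↑(F m)) :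
    19 / 32 * radSeq n ≤ dist y x ∧ 19 / 32 * radSeq m ≤ dist y x := by
  obtain ⟨y1, y2⟩ := norm_place hR hb hy
  obtain ⟨x1, x2⟩ := norm_place hR hb hx
  have hd1 : ‖y‖ - ‖x‖ ≤ dist y x := by
    rw [dist_eq_norm]
    exact norm_sub_norm_le y x
  have hd2 : ‖x‖ - ‖y‖ ≤ dist y x := by
    rw [dist_comm, dist_eq_norm]
    exact norm_sub_norm_le x y
  have := radSeq_pos n
  have := radSeq_pos m
  rcases lt_or_gt_of_ne h with hlt | hlt
  · have := radSeq_lt hlt
    constructor <;> linarith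
  · have := radSeq_lt hlt
    constructor <;> linarith

theorem doublingWith_cluster (hR : ∀ n, 0 < R n) {lam : ℕ} {n : ℕ}
    (hF : DoublingWith (↑(F n)) lam) : DoublingWith (place b R n '' ↑(F n)) lam := by
  classical
  rintro _ ⟨x, hx, rfl⟩ r hr
  have hs : 0 < radSeq n / (8 * R n) := div_pos (radSeq_pos n) (mul_pos (by norm_num) (hR n))
  obtain ⟨C, hCX, hCc, hC⟩ := hF x hx (r / (radSeq n / (8 * R n))) (div_pos hr hs)
  refine ⟨C.image (place b R n), ?_, Finset.card_image_le.trans hCc, ?_⟩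
  · rw [Finset.coe_image]
    exact image_mono hCX
  · rintro _ ⟨y, hy, rfl⟩ hd
    rw [dist_place hR] at hd
    obtain ⟨c, hc, hyc⟩ := hC y hy (by rw [le_div_iff₀' hs]; exact hd)
    refine ⟨_, Finset.mem_image_of_mem _ hc, ?_⟩
    rw [dist_place hR]
    calc _ ≤ radSeq n / (8 * R n) * (r / (radSeq n / (8 * R n)) / 2) :=
          mul_le_mul_of_nonneg_left hyc hs.le
      _ = r / 2 := by rw [← mul_div_assoc, mul_div_cancel₀ r hs.ne']

/-- A family of clusters of which at most one is relevant is covered by `lam * lam` balls. -/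
theorem cover_single (hR : ∀ n, 0 < R n) {lam : ℕ}
    (hF : ∀ n, DoublingWith (↑(F n)) lam) {x : Hilb} {r : ℝ} (hr : 0 < r) (P : ℕ → Prop)
    (hP : ∀ n m, P n → P m → n = m) :
    ∃ C : Finset Hilb, ↑C ⊆ glued F b R ∧ C.card ≤ lam * lam ∧
      ∀ n, P n → ∀ y ∈ place b R n '' ↑(F n), dist y x ≤ r → ∃ c ∈ C, dist y c ≤ r / 2 := by
  by_cases h : ∃ n, P n ∧ ∃ y ∈ place b R n '' ↑(F n), dist y x ≤ r
  · obtain ⟨n, hn, y₀, hy₀, hd₀⟩ := h
    obtain ⟨C, hCX, hCc, hC⟩ :=
      (doublingWith_cluster hR (hF n)).cover_two hy₀ (r := 2 * r) (by linarith)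
    refine ⟨C, hCX.trans fun z hz => mem_insert_of_mem _ (mem_iUnion_of_mem n hz), hCc,
      fun m hm y hy hd => ?_⟩
    obtain rfl := hP n m hn hm
    obtain ⟨c, hc, hyc⟩ := hC y hy (by linarith [dist_triangle_right y y₀ x])
    exact ⟨c, hc, by linarith⟩
  · exact ⟨∅, by simp, by simp, fun n hn y hy hd => absurd ⟨n, hn, y, hy, hd⟩ h⟩

theorem doublingWith_glued (hR : ∀ n, 0 < R n) (hb : ∀ n, ∀ z ∈ F n, dist z (b n) ≤ R n)
    {lam : ℕ} (hF : ∀ n, DoublingWith (↑(F n)) lam) :
    DoublingWith (glued F b R) (2 * (lam * lam) + 1) := by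
  classical
  intro x hx r hr
  let N : ℕ → Prop := fun n => ∃ y ∈ place b R n '' ↑(F n), dist y x ≤ r ∧ r / 2 < ‖y‖
  obtain ⟨C₁, hC₁X, hC₁c, hC₁⟩ := cover_single (x := x) hR hF hr
    (fun n => x ∈ place b R n '' ↑(F n)) (by
      intro n m hn hm
      by_contra hne
      have := (dist_place_ne hR hb hne hn hm).1
      rw [dist_self] at this
      linarith [radSeq_pos n])
  obtain ⟨C₂, hC₂X, hC₂c, hC₂⟩ := cover_single (x := x) hR hF hr
    (fun n => N n ∧ x ∉ place b R n '' ↑(F n)) (by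
      have key : ∀ n, N n → x ∉ place b R n '' ↑(F n) →
          4 / 9 * r < radSeq n ∧ 19 / 32 * radSeq n ≤ r := by
        rintro n ⟨y, hy, hd, hn⟩ hxn
        have h1 := (norm_place hR hb hy).2
        refine ⟨by linarith, ?_⟩
        rcases mem_insert_iff.1 hx with rfl | hxm
        · rw [dist_zero_right] at hd
          have := (norm_place hR hb hy).1
          linarith [radSeq_pos n]
        · obtain ⟨m, hm⟩ := mem_iUnion.1 hxm
          have hne : n ≠ m := by
            rintro rfl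
            exact hxn hm
          have := (dist_place_ne hR hb hne hy hm).1
          linarith
      rintro n m ⟨hn, hn'⟩ ⟨hm, hm'⟩
      obtain ⟨a1, a2⟩ := key n hn hn'
      obtain ⟨b1, b2⟩ := key m hm hm'
      by_contra hne
      rcases lt_or_gt_of_ne hne with hlt | hlt <;>
        linarith [radSeq_lt hlt])
  refine ⟨insert 0 (C₁ ∪ C₂), ?_, ?_, ?_⟩
  · rw [Finset.coe_insert, Finset.coe_union]
    exact insert_subset (mem_insert 0 _) (union_subset hC₁X hC₂X)
  · have := Finset.card_insert_le (0 : Hilb) (C₁ ∪ C₂)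
    have := Finset.card_union_le C₁ C₂
    omega
  · intro y hy hd
    by_cases hsmall : ‖y‖ ≤ r / 2
    · exact ⟨0, Finset.mem_insert_self _ _, by rwa [dist_zero_right]⟩
    · rcases mem_insert_iff.1 hy with rfl | hyU
      · simp at hsmall
        linarith
      · obtain ⟨n, hn⟩ := mem_iUnion.1 hyU
        by_cases hxn : x ∈ place b R n '' ↑(F n)
        · obtain ⟨c, hc, hyc⟩ := hC₁ n hxn y hn hd
          exact ⟨c, Finset.mem_insert_of_mem (Finset.mem_union_left _ hc), hyc⟩
        · obtain ⟨c, hc, hyc⟩ := hC₂ n ⟨⟨y, hn, hd, not_le.1 hsmall⟩, hxn⟩ y hn hd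
          exact ⟨c, Finset.mem_insert_of_mem (Finset.mem_union_right _ hc), hyc⟩

theorem countable_glued : (glued F b R).Countable :=
  (countable_iUnion fun n => ((F n).countable_toSet.image _)).insert 0

theorem isCompact_glued (hR : ∀ n, 0 < R n) (hb : ∀ n, ∀ z ∈ F n, dist z (b n) ≤ R n) :
    IsCompact (glued F b R) := by
  let f : (Σ n, (F n : Set Hilb)) → Hilb := fun p => place b R p.1 p.2.1
  have hr : range f = ⋃ n, place b R n '' ↑(F n) := by
    ext y
    simp only [mem_range, Sigma.exists, mem_iUnion, mem_image, f]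
    constructor
    · rintro ⟨n, ⟨z, hz⟩, h⟩
      exact ⟨n, z, hz, h⟩
    · rintro ⟨n, z, hz, h⟩
      exact ⟨n, ⟨z, hz⟩, h⟩
  have ht : Filter.Tendsto f Filter.cofinite (nhds 0) := by
    rw [Metric.tendsto_nhds]
    intro ε hε
    obtain ⟨M, hM⟩ := exists_pow_lt_of_lt_one (half_pos hε) (show (1 / 4 : ℝ) < 1 by norm_num)
    rw [Filter.eventually_cofinite]
    refine Set.Finite.subset ((Finset.range M).sigma fun n => (Finset.univ :
      Finset (F n : Set Hilb))).finite_toSet ?_
    rintro ⟨n, z⟩ h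
    simp only [mem_ofPred_eq, not_lt, dist_zero_right, f] at h
    simp only [Finset.coe_sigma, Finset.coe_range, Finset.coe_univ, mem_sigma_iff, mem_Iio,
      mem_univ, and_true]
    by_contra hn
    have h1 := (norm_place hR hb (mem_image_of_mem (place b R n) z.2)).2
    have h2 : radSeq n ≤ (1 / 4) ^ M :=
      pow_le_pow_of_le_one (by norm_num) (by norm_num) (not_lt.1 hn)
    linarith [radSeq_pos n]
  have := ht.isCompact_insert_range_of_cofinite
  rwa [hr] at this

theorem isolated_glued (hR : ∀ n, 0 < R n) (hb : ∀ n, ∀ z ∈ F n, dist z (b n) ≤ R n)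
    {x : Hilb} (hx : x ∈ glued F b R) (hx0 : x ≠ 0) :
    ∃ ε > 0, ∀ y ∈ glued F b R, dist y x < ε → y = x := by
  obtain ⟨m, hm⟩ := mem_iUnion.1 ((mem_insert_iff.1 hx).resolve_left hx0)
  have hfin : ((place b R m '' ↑(F m)) \ {x}).Finite :=
    ((F m).finite_toSet.image _).subset sdiff_subset
  obtain ⟨ε, hε, hball⟩ := Metric.isOpen_iff.1 hfin.isClosed.isOpen_compl x (by simp)
  refine ⟨min ε (radSeq m / 2), lt_min hε (half_pos (radSeq_pos m)), fun y hy hd => ?_⟩
  rcases mem_insert_iff.1 hy with rfl | hyU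
  · rw [dist_zero_left] at hd
    linarith [(norm_place hR hb hm).1, min_le_right ε (radSeq m / 2), radSeq_pos m]
  · obtain ⟨n, hn⟩ := mem_iUnion.1 hyU
    by_cases hne : n = m
    · subst hne
      by_contra hyx
      exact hball (mem_ball.2 (hd.trans_le (min_le_left _ _))) ⟨hn, hyx⟩
    · linarith [(dist_place_ne hR hb hne hn hm).2, min_le_right ε (radSeq m / 2), radSeq_pos m]

theorem embedsWith_of_glued (hR : ∀ n, 0 < R n) {k : ℕ} {D : ℝ}
    (h : EmbedsWith (glued F b R) k D) (n : ℕ) : EmbedsWith (↑(F n)) k D := by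
  obtain ⟨f, a, ha, hf⟩ := h
  have hs : 0 < radSeq n / (8 * R n) := div_pos (radSeq_pos n) (mul_pos (by norm_num) (hR n))
  refine ⟨f ∘ place b R n, a * (radSeq n / (8 * R n)), mul_pos ha hs, fun x hx y hy => ?_⟩
  have hmem : ∀ z ∈ F n, place b R n z ∈ glued F b R := fun z hz =>
    mem_insert_of_mem _ (mem_iUnion_of_mem n ⟨z, hz, rfl⟩)
  obtain ⟨h1, h2⟩ := hf _ (hmem x hx) _ (hmem y hy)
  rw [dist_place hR] at h1 h2
  simp only [Function.comp_apply]
  constructor
  · exact le_trans (le_of_eq (by ring)) h1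
  · exact h2.trans (le_of_eq (by ring))

/-- If finite configurations with constant `lam` are not uniformly embeddable, then one compact
countable set with at most one accumulation point is not embeddable. -/
theorem exists_counterexample {lam : ℕ}
    (h : ∀ (k : ℕ) (D : ℝ), ∃ F : Finset Hilb, DoublingWith (↑F) lam ∧ ¬ EmbedsWith (↑F) k D) :
    ∃ X : Set Hilb, IsCompact X ∧ X.Countable ∧
      (∀ x ∈ X, x ≠ 0 → ∃ ε > 0, ∀ y ∈ X, dist y x < ε → y = x) ∧
      DoublingWith X (2 * (lam * lam) + 1) ∧ ¬ Embeds X := by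
  classical
  choose F hF hnot using fun n : ℕ => h (Nat.unpair n).1 ((Nat.unpair n).2 : ℝ)
  have hne : ∀ n, (F n).Nonempty := fun n => Finset.nonempty_iff_ne_empty.2 fun he => hnot n (by
    rw [he, Finset.coe_empty]
    exact embedsWith_empty _ _)
  choose b hbF using hne
  let R : ℕ → ℝ := fun n => (F n).sum (fun z => dist z (b n)) + 1
  have hR : ∀ n, 0 < R n := fun n => by
    have : 0 ≤ (F n).sum (fun z => dist z (b n)) := Finset.sum_nonneg fun z _ => dist_nonneg
    simp only [R]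
    linarith
  have hb : ∀ n, ∀ z ∈ F n, dist z (b n) ≤ R n := fun n z hz => by
    have := Finset.single_le_sum (f := fun z => dist z (b n)) (fun z _ => dist_nonneg) hz
    simp only [R]
    linarith
  refine ⟨glued F b R, isCompact_glued hR hb, countable_glued,
    fun x hx hx0 => isolated_glued hR hb hx hx0, doublingWith_glued hR hb hF, ?_⟩
  rintro ⟨k, D, hkD⟩
  have h1 := (embedsWith_of_glued hR hkD (Nat.pair k ⌈D⌉₊)).mono (Nat.le_ceil D)
  have h2 := hnot (Nat.pair k ⌈D⌉₊)
  rw [Nat.unpair_pair] at h2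
  exact h2 h1

end Vale.Agent.P208
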